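import Vale.Agent.P184.Linear

namespace Vale.Agent.Results.P184.L1Vanishing

open Vale.Agent.P184

universe u v

theorem result :
    (∀ (G : Type u) [Group G] (q : ℕ) (e : Fin q → Fin q → G → ℂ), IsL1Idempotent e →
      ∀ (g : G) (w : G → ℝ), (∀ a b, w (a * b) ≤ w a + w b) →
      ∀ φ : Subgroup.centralizer ({g} : Set G) → ℝ, (∀ y z, φ (y * z) = φ y + φ z) →
      (∀ z, φ z ≤ w z) → φ ⟨g, Subgroup.mem_centralizer_singleton_iff.mpr rfl⟩ ≠ 0 →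
      hsTrace e g = 0) ∧
    (∀ (G : Type u) [Group G] (q : ℕ) (e : Fin q → Fin q → G → ℂ), IsL1Idempotent e →
      ∀ (g : G) (w : G → ℝ), (∀ a b, w (a * b) ≤ w a + w b) →
      (∃ τ : ℝ, 0 < τ ∧ ∀ n : ℤ, |(n : ℝ)| * τ ≤ w (g ^ n)) →
      (∃ m : (Subgroup.centralizer ({g} : Set G) → ℝ) → ℝ,
        (∀ a b, (∃ c, ∀ z, |a z| ≤ c) → (∃ c, ∀ z, |b z| ≤ c) → m (a + b) = m a + m b) ∧
        (∀ c : ℝ, m (fun _ => c) = c) ∧
        (∀ a b, (∃ c, ∀ z, |a z| ≤ c) → (∃ c, ∀ z, |b z| ≤ c) → (∀ z, a z ≤ b z) → m a ≤ m b) ∧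
        (∀ a y, (∃ c, ∀ z, |a z| ≤ c) → m (fun z => a (z * y)) = m a)) →
      hsTrace e g = 0) ∧
    (∀ (G : Type u) [Group G] (k : Type v) [Field k] (n : ℕ) (ρ : G →* GL (Fin n) k) (g : G),
      (∀ m : ℕ, 0 < m → ¬ IsNilpotent ((ρ (g ^ m) : Matrix (Fin n) (Fin n) k) - 1)) →
      ∀ (q : ℕ) (e : Fin q → Fin q → G → ℂ), IsL1Idempotent e → hsTrace e g = 0) ∧
    (∀ (G : Type u) [Group G] (k : Type v) [Field k] (p : ℕ) [Fact p.Prime] [CharP k p]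
      (n : ℕ) (ρ : G →* GL (Fin n) k), Function.Injective ρ →
      ∀ (q : ℕ) (e : Fin q → Fin q → G → ℂ), IsL1Idempotent e →
      ∀ g : G, ¬ IsOfFinOrder g → hsTrace e g = 0) :=
  ⟨fun _ _ _ e he _ w hw φ hφ hle hg => hsTrace_eq_zero_of_char w hw φ hφ hle hg e he,
   fun _ _ _ e he _ w hw ⟨_, hτ, hgrow⟩ ⟨m, madd, mone, mpos, minv⟩ =>
    hsTrace_eq_zero_of_amenable_centralizer w hw hτ hgrow m madd mone mpos minv e he,
   fun _ _ _ _ _ ρ g hg _ e he => hsTrace_eq_zero_of_not_quasiUnipotent ρ g hg e he,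
   fun _ _ _ _ p _ _ _ ρ hρ _ e he g hg => hsTrace_eq_zero_of_charP p ρ hρ g hg e he⟩

end Vale.Agent.Results.P184.L1Vanishing
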